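import Mathlib

/-!
# P205 full: the hand-in vocabulary (helper55)

The notions of `Statement.lean` over a generic model, so that every definition prints short.
Both forms agree by definition.
-/

open scoped Manifold ContDiff RealInnerProductSpace
open Bundle

namespace Vale.Agent.P205.Full.Answer

noncomputable section

variable {E H V : Type} [NormedAddCommGroup E] [NormedSpace ℝ E] [TopologicalSpace H]
  (I : ModelWithCorners ℝ E H) [NormedAddCommGroup V] [InnerProductSpace ℝ V]
  (M : Type) [TopologicalSpace M] [ChartedSpace H M] [IsManifold I ∞ M]

/-- A smooth Riemannian metric on `M` (the notion of Mathlib). -/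
abbrev SmoothMetric := ContMDiffRiemannianMetric I ∞ E (fun x : M => TangentSpace I x)

variable {M}

/-- The differential of `f` at `x`. -/
def differential (f : M → V) (x : M) : E →L[ℝ] V := mfderiv I 𝓘(ℝ, V) f x

variable {I}

/-- The bilinear form of the metric on the tangent space at `x`. -/
def metricAt (g : SmoothMetric I M) (x : M) : E →L[ℝ] E →L[ℝ] ℝ := g.inner x

/-- `f` is smooth and pulls the inner product back to `g`. -/
def IsSmoothIsometric (g : SmoothMetric I M) (f : M → V) : Prop :=
  ContMDiff I 𝓘(ℝ, V) ∞ f ∧
    ∀ (x : M) (v w : E), ⟪differential I f x v, differential I f x w⟫ = metricAt g x v w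

end

end Vale.Agent.P205.Full.Answer
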