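import Vale.Agent.P205.Full.Frame
import Vale.Agent.P205.Full.Topo.Main
import Vale.Agent.P205.Full.Open.Main
import Vale.Agent.P205.Full.Start.Finish
import Vale.Agent.P205.Full.Start.Spiral
import Vale.Agent.P205.Full.Stage.Main

/-!
# P205 full: assembly of the proved modules (helper55)
-/

namespace Vale.Agent.P205.Full

/-- The start map from the stage lemma and the base data. -/
theorem start_of_stage (hSt : StageProp) (hB : Start.BaseDataProp) : StartProp :=
  Start.startProp_of hSt (Start.spiralProp_of hB)

/-- Q1 for surfaces immersible in three-space, from the two open modules. -/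
theorem q1R3_of_stage (hSt : StageProp) (hB : Start.BaseDataProp) : Q1R3 :=
  q1R3_of frameExists (Open.openness_of_stage hSt) (start_of_stage hSt hB)

/-- Q1 in full, from the two open modules. -/
theorem q1Full_of_stage (hSt : StageProp) (hB : Start.BaseDataProp) : Q1Full :=
  q1Full_of (q1R3_of_stage hSt hB) Topo.surfacesImmerse

/-- Q1 in full, from the base data alone. -/
theorem q1Full_of_baseData (hB : Start.BaseDataProp) : Q1Full :=
  q1Full_of_stage Stage.stage_stmt hB

end Vale.Agent.P205.Full
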