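import Vale.Agent.P205.Full.Statement

/-!
# P205 full: shared definitions (frozen interface, helper55)

All analysis is done with a finite family `V` of tangent vector fields acting as derivations
on functions `M → E`; no charts appear in the interfaces.
-/

open scoped Manifold ContDiff RealInnerProductSpace
open Bundle

namespace Vale.Agent.P205.Full

section

variable {M : Type} [TopologicalSpace M] [ChartedSpace R2 M] [IsManifold (𝓡 2) ∞ M]
variable {E : Type} [NormedAddCommGroup E] [NormedSpace ℝ E]
variable {N : ℕ}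

/-- A finite family of vector fields on `M`. -/
abbrev Frame (M : Type) [TopologicalSpace M] [ChartedSpace R2 M] [IsManifold (𝓡 2) ∞ M]
    (N : ℕ) :=
  Fin N → (x : M) → TangentSpace (𝓡 2) x

/-- Smoothness of a frame, as maps into the tangent bundle. -/
def FrameSmooth (V : Frame M N) : Prop :=
  ∀ i, ContMDiff (𝓡 2) ((𝓡 2).prod 𝓘(ℝ, R2)) ∞
    (fun x => TotalSpace.mk' R2 (E := fun x : M => TangentSpace (𝓡 2) x) x (V i x))

/-- The frame spans every tangent space. -/
def FrameSpans (V : Frame M N) : Prop :=
  ∀ x, Submodule.span ℝ (Set.range fun i => V i x) = ⊤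

/-- Derivative of `f` along `V i`. -/
noncomputable def D (V : Frame M N) (i : Fin N) (f : M → E) : M → E :=
  fun x => mfderiv (𝓡 2) 𝓘(ℝ, E) f x (V i x)

/-- The differential of a real function, valued in `ℝ`. -/
noncomputable def dR (f : M → ℝ) (x : M) (v : TangentSpace (𝓡 2) x) : ℝ :=
  mfderiv (𝓡 2) 𝓘(ℝ, ℝ) f x v

/-- Iterated derivative along a word. -/
noncomputable def DW (V : Frame M N) (w : List (Fin N)) (f : M → E) : M → E :=
  w.foldr (fun i h => D V i h) f

/-- `f` has all word derivatives up to order `K` bounded by `C * μ` on the set `s`. -/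
def BdOn (V : Frame M N) (s : Set M) (K : ℕ) (C : ℝ) (μ : M → ℝ) (f : M → E) : Prop :=
  ∀ w : List (Fin N), w.length ≤ K → ∀ x ∈ s, ‖DW V w f x‖ ≤ C * μ x

/-- `BdOn` on all of `M`. -/
def Bd (V : Frame M N) (K : ℕ) (C : ℝ) (μ : M → ℝ) (f : M → E) : Prop :=
  BdOn V Set.univ K C μ f

/-- Components of the metric in the frame. -/
noncomputable def gV (g : Metric M) (V : Frame M N) (i k : Fin N) : M → ℝ :=
  fun x => g.inner x (V i x) (V k x)

/-- Components of the pull-back metric of `F`. -/
noncomputable def pullV (F : M → R4) (V : Frame M N) (i k : Fin N) : M → ℝ :=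
  fun x => ⟪D V i F x, D V k F x⟫

/-- The tangent plane of `F` at `x`, in `ℝ⁴`. -/
noncomputable def tanPlane (F : M → R4) (x : M) : Submodule ℝ R4 :=
  LinearMap.range (mfderiv (𝓡 2) 𝓘(ℝ, R4) F x).toLinearMap

/-- Second fundamental form in the frame. -/
noncomputable def sff (F : M → R4) (V : Frame M N) (i k : Fin N) : M → R4 :=
  fun x => (tanPlane F x)ᗮ.starProjection (D V i (D V k F) x)

/-- Size of the second fundamental form. -/
noncomputable def sffSize (F : M → R4) (V : Frame M N) (x : M) : ℝ :=
  ∑ i, ∑ k, ‖sff F V i k x‖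

end

end Vale.Agent.P205.Full
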