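import Vale.Agent.P205.Full.Stmts

/-!
# P205 full, module FRAME: every compact surface has a smooth spanning frame

Bump functions times the coordinate frames of finitely many charts.
-/

open scoped Manifold ContDiff
open Bundle Module

namespace Vale.Agent.P205.Full

theorem frameExists : FrameExistsProp := by
  intro M _ _ _ _ _
  obtain ⟨ι, f, -⟩ := SmoothBumpCovering.exists_isSubordinate (𝓡 2) isClosed_univ
    (fun (x : M) _ => (Filter.univ_mem : (Set.univ : Set M) ∈ nhds x))
  have := f.fintype
  let b : Basis (Fin 2) ℝ R2 := (EuclideanSpace.basisFun (Fin 2) ℝ).toBasis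
  let e : ι → Trivialization R2 (π R2 (fun x : M => TangentSpace (𝓡 2) x)) :=
    fun i => trivializationAt R2 (fun x : M => TangentSpace (𝓡 2) x) (f.c i)
  let W : ι × Fin 2 → (x : M) → TangentSpace (𝓡 2) x :=
    fun q x => f q.1 x • (e q.1).localFrame b q.2 x
  let q := (Fintype.equivFin (ι × Fin 2)).symm
  refine ⟨Fintype.card (ι × Fin 2), fun i => W (q i), fun i => ?_, fun x => ?_⟩
  · exact ((f (q i).1).contMDiff.contMDiffOn).smul_section_of_tsupport
      (e (q i).1).open_baseSet
      (by simpa [e] using (f (q i).1).tsupport_subset_chartAt_source)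
      ((e (q i).1).contMDiffOn_localFrame_baseSet (I := 𝓡 2) ∞ b (q i).2)
  · have hx : x ∈ (e (f.ind x trivial)).baseSet := by
      simpa [e] using f.mem_chartAt_ind_source x trivial
    rw [eq_top_iff, ← ((e (f.ind x trivial)).basisAt b hx).span_eq]
    refine Submodule.span_mono ?_
    rintro v ⟨k, rfl⟩
    refine ⟨q.symm (f.ind x trivial, k), ?_⟩
    simp [W, hx, f.apply_ind x trivial]

end Vale.Agent.P205.Full
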