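import Vale.Agent.P205.Full.Assembly
import Vale.Agent.P205.Full.Start.Assemble

/-!
# P205: every closed smooth Riemannian surface immerses isometrically in four-space
-/

namespace Vale.Agent.P205.Full

/-- Q1 in full. -/
theorem q1Full : Q1Full :=
  q1Full_of_baseData Start.baseData

end Vale.Agent.P205.Full
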