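import Mathlib

/-!
# P205, full answer: frozen target statements (helper55)

`Q1Full`: every closed smooth Riemannian surface has a `C^∞` isometric immersion in `ℝ⁴`.
`Q1R3`: the same for every closed surface admitting a smooth immersion in `ℝ³`
(classically every closed surface; that fact is the separate topology module).
-/

open scoped Manifold ContDiff RealInnerProductSpace
open Bundle

namespace Vale.Agent.P205.Full

abbrev R2 := EuclideanSpace ℝ (Fin 2)
abbrev R3 := EuclideanSpace ℝ (Fin 3)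
abbrev R4 := EuclideanSpace ℝ (Fin 4)

section

variable (M : Type) [TopologicalSpace M] [ChartedSpace R2 M] [IsManifold (𝓡 2) ∞ M]

/-- A smooth Riemannian metric on the surface `M`. -/
abbrev Metric :=
  ContMDiffRiemannianMetric (𝓡 2) ∞ R2 (fun x : M => TangentSpace (𝓡 2) x)

variable {M}

/-- `F` is a `C^∞` isometric map `(M,g) → ℝ⁴` (hence an immersion). -/
def IsIsometricImmersion (g : Metric M) (F : M → R4) : Prop :=
  ContMDiff (𝓡 2) 𝓘(ℝ, R4) ∞ F ∧
    ∀ (x : M) (v w : TangentSpace (𝓡 2) x),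
      ⟪(mfderiv (𝓡 2) 𝓘(ℝ, R4) F x v : R4), (mfderiv (𝓡 2) 𝓘(ℝ, R4) F x w : R4)⟫ =
        g.inner x v w

variable (M)

/-- `M` has a smooth immersion in `ℝ³`. -/
def ImmersesInR3 : Prop :=
  ∃ F : M → R3, ContMDiff (𝓡 2) 𝓘(ℝ, R3) ∞ F ∧
    ∀ x : M, Function.Injective (mfderiv (𝓡 2) 𝓘(ℝ, R3) F x)

end

/-- Main target: Q1 for every closed surface immersible in `ℝ³`. -/
def Q1R3 : Prop :=
  ∀ (M : Type) [TopologicalSpace M] [T2Space M] [CompactSpace M] [ChartedSpace R2 M]
    [IsManifold (𝓡 2) ∞ M], ImmersesInR3 M → ∀ g : Metric M, ∃ F, IsIsometricImmersion g F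

/-- Classical surface topology, the separate module T. -/
def SurfacesImmerse : Prop :=
  ∀ (M : Type) [TopologicalSpace M] [T2Space M] [CompactSpace M] [ChartedSpace R2 M]
    [IsManifold (𝓡 2) ∞ M], ImmersesInR3 M

/-- P205 Q1 in full. -/
def Q1Full : Prop :=
  ∀ (M : Type) [TopologicalSpace M] [T2Space M] [CompactSpace M] [ChartedSpace R2 M]
    [IsManifold (𝓡 2) ∞ M] (g : Metric M), ∃ F, IsIsometricImmersion g F

theorem q1Full_of (h : Q1R3) (t : SurfacesImmerse) : Q1Full :=
  fun M _ _ _ _ _ g => h M (t M) g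

end Vale.Agent.P205.Full
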