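import Vale.Agent.P205.Full.Defs

/-!
# P205 full: frozen module statements (helper55). See PLAN.md in this folder.
-/

open scoped Manifold ContDiff RealInnerProductSpace
open Bundle

namespace Vale.Agent.P205.Full

/-- Every surface has a smooth spanning frame. -/
def FrameExistsProp : Prop :=
  ∀ (M : Type) [TopologicalSpace M] [T2Space M] [CompactSpace M] [ChartedSpace R2 M]
    [IsManifold (𝓡 2) ∞ M], ∃ (N : ℕ) (V : Frame M N), FrameSmooth V ∧ FrameSpans V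

section

variable {M : Type} [TopologicalSpace M] [ChartedSpace R2 M] [IsManifold (𝓡 2) ∞ M]

/-- Hypotheses of one oscillatory stage. `ℓ` is the length scale of the frame, `H` the normalised
size of the second fundamental form, `σ` the slack; `Y`, `χ` are phases and their cutoffs. -/
structure StageData (g : Metric M) {N P : ℕ} (V : Frame M N) (F : M → R4)
    (ℓ H σ : M → ℝ) (Y χ : Fin P → M → ℝ) (K : ℕ) (B δ : ℝ) : Prop where
  smooth_V : FrameSmooth V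
  smooth_F : ContMDiff (𝓡 2) 𝓘(ℝ, R4) ∞ F
  smooth_ℓ : ContMDiff (𝓡 2) 𝓘(ℝ, ℝ) ∞ ℓ
  smooth_H : ContMDiff (𝓡 2) 𝓘(ℝ, ℝ) ∞ H
  smooth_σ : ContMDiff (𝓡 2) 𝓘(ℝ, ℝ) ∞ σ
  smooth_Y : ∀ p, ContMDiff (𝓡 2) 𝓘(ℝ, ℝ) ∞ (Y p)
  smooth_χ : ∀ p, ContMDiff (𝓡 2) 𝓘(ℝ, ℝ) ∞ (χ p)
  pos_ℓ : ∀ x, 0 < ℓ x
  pos_H : ∀ x, 0 < H x
  le_H : ∀ x, H x ≤ B
  pos_σ : ∀ x, 0 < σ x
  bd_ℓ : Bd V K B ℓ ℓ
  bd_H : Bd V K B H H
  bd_σ : Bd V K B σ σ
  frame_lower : ∀ x (v : TangentSpace (𝓡 2) x),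
    ℓ x ^ 2 * g.inner x v v ≤ B * ∑ i, (g.inner x (V i x) v) ^ 2
  frame_upper : ∀ x (v : TangentSpace (𝓡 2) x),
    ∑ i, (g.inner x (V i x) v) ^ 2 ≤ B * (ℓ x ^ 2 * g.inner x v v)
  bd_g : ∀ i k, Bd V K B (fun x => ℓ x ^ 2) (gV g V i k)
  bd_dF : ∀ i, Bd V K B ℓ (D V i F)
  bd_sff : ∀ i k, Bd V K B (fun x => ℓ x * H x) (sff F V i k)
  sff_lower : ∀ x, ℓ x * H x ≤ B * sffSize F V x
  bd_res : ∀ i k, Bd V K δ (fun x => σ x * ℓ x ^ 2)
    (fun x => gV g V i k x - pullV F V i k x - σ x * gV g V i k x)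
  bd_χ : ∀ p, Bd V K B (fun _ => 1) (χ p)
  bd_dY : ∀ p i, BdOn V (tsupport (χ p)) K B (fun _ => 1) (D V i (Y p))
  rich : ∀ x (u : TangentSpace (𝓡 2) x), g.inner x u u = 1 →
    ∃ p, χ p x = 1 ∧ ∀ v : TangentSpace (𝓡 2) x,
      |ℓ x * dR (Y p) x v - g.inner x u v| ≤
        (1 / 100) * Real.sqrt (g.inner x v v)

end

/-- **Stage lemma.** One finite series of simultaneous oscillations turns slack `σ g` into an
error of order `(ε + √σ/(εH))^m`. All constants are independent of the surface and the data;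
the derivative loss `K` does not depend on the bound `B`. -/
def StageProp : Prop :=
  ∀ (N P m j : ℕ), ∃ K : ℕ, ∀ B : ℝ, ∃ C ε₀ : ℝ, 0 < C ∧ 0 < ε₀ ∧
    ∀ (M : Type) [TopologicalSpace M] [T2Space M] [CompactSpace M] [ChartedSpace R2 M]
      [IsManifold (𝓡 2) ∞ M] (g : Metric M) (V : Frame M N) (F : M → R4)
      (ℓ H σ : M → ℝ) (Y χ : Fin P → M → ℝ) (ε : ℝ),
      StageData g V F ℓ H σ Y χ K B ε₀ → 0 < ε → ε ≤ ε₀ →
      (∀ x, Real.sqrt (σ x) ≤ ε₀ * ε * H x) →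
      ∃ F' : M → R4, ContMDiff (𝓡 2) 𝓘(ℝ, R4) ∞ F' ∧
        (∀ w : List (Fin N), w.length ≤ j → ∀ x,
          ‖DW V w (fun y => F' y - F y) x‖ ≤
            C * (1 / ε) ^ w.length * (ε * ℓ x * Real.sqrt (σ x))) ∧
        (∀ i k, ∀ w : List (Fin N), w.length ≤ j → ∀ x,
          ‖DW V w (fun y => gV g V i k y - pullV F' V i k y) x‖ ≤
            C * (1 / ε) ^ w.length * (ε + Real.sqrt (σ x) / (ε * H x)) ^ m *
              (ℓ x ^ 2 * Real.sqrt (σ x) * (Real.sqrt (σ x) + ε * H x)))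

/-- **Quantitative openness** (iteration with mollification). -/
def OpennessProp : Prop :=
  ∀ (M : Type) [TopologicalSpace M] [T2Space M] [CompactSpace M] [ChartedSpace R2 M]
    [IsManifold (𝓡 2) ∞ M] (g : Metric M) (N : ℕ) (V : Frame M N),
    FrameSmooth V → FrameSpans V →
    ∃ (J e : ℕ) (A₀ : ℝ), ∀ A : ℝ, A₀ ≤ A → ∀ F : M → R4,
      ContMDiff (𝓡 2) 𝓘(ℝ, R4) ∞ F → Bd V J A (fun _ => 1) F →
      (∀ x, 1 ≤ A * sffSize F V x) →
      (∀ i k, Bd V J (A ^ e)⁻¹ (fun _ => 1) (fun x => gV g V i k x - pullV F V i k x)) →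
      ∃ F', IsIsometricImmersion g F'

/-- **Start map.** Arbitrarily good approximate isometric immersions with `h ≠ 0`. -/
def StartProp : Prop :=
  ∀ (M : Type) [TopologicalSpace M] [T2Space M] [CompactSpace M] [ChartedSpace R2 M]
    [IsManifold (𝓡 2) ∞ M], ImmersesInR3 M →
    ∀ (g : Metric M) (N : ℕ) (V : Frame M N), FrameSmooth V → FrameSpans V →
    ∀ (J e : ℕ) (A₀ : ℝ), ∃ (A : ℝ) (F : M → R4), A₀ ≤ A ∧
      ContMDiff (𝓡 2) 𝓘(ℝ, R4) ∞ F ∧ Bd V J A (fun _ => 1) F ∧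
      (∀ x, 1 ≤ A * sffSize F V x) ∧
      (∀ i k, Bd V J (A ^ e)⁻¹ (fun _ => 1) (fun x => gV g V i k x - pullV F V i k x))

/-- The assembly. -/
theorem q1R3_of (hF : FrameExistsProp) (hO : OpennessProp) (hS : StartProp) : Q1R3 := by
  intro M _ _ _ _ _ hM g
  obtain ⟨N, V, hV, hspan⟩ := hF M
  obtain ⟨J, e, A₀, h⟩ := hO M g N V hV hspan
  obtain ⟨A, F, hA, hs, hb, hh, hr⟩ := hS M hM g N V hV hspan J e A₀
  exact h A hA F hs hb hh hr

end Vale.Agent.P205.Full
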